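import Crest.Agent.X212.Ten12.Sob

/-!
# Row 212, CYC-TEN (helper12): `R ⊗ 1`, the exchange of the factors, kernels
-/

set_option autoImplicit false
set_option linter.unusedSectionVars false
noncomputable section
open scoped Manifold ContDiff Topology InnerProductSpace
open MeasureTheory Set Function Filter

namespace Crest.Agent.X212.Ten12
open An An.Pre Sob92 Cyc79
open Mon62 (HT ic Mu Dt Nb QQ Act RepM)
open ContinuousLinearMap (adjoint lsmul)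

variable {κ κ' κ'' : Type} [Fintype κ] [DecidableEq κ] [Fintype κ'] [DecidableEq κ'] [Fintype κ'']
  [DecidableEq κ''] {K K' : Type} [NormedAddCommGroup K] [InnerProductSpace ℝ K] [CompleteSpace K]
  [NormedAddCommGroup K'] [InnerProductSpace ℝ K'] [CompleteSpace K']

section fib

variable (K) in
/-- amplification of a rectangular matrix -/
def am : CL (Eu κ) (Eu κ') →L[ℝ] CL (Fm κ K) (Fm κ' K) := (fib κ K).lft (fib κ' K)

theorem ct_am (h : K) (T : CL (Eu κ) (Eu κ')) (v : Fm κ K) : ct h (am K T v) = T (ct h v) :=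
  (fib κ K).c_lft (fib κ' K) T v h

theorem am_eq (T : En κ) : am K T = amp K T := (fib κ K).lft_eq (fib κ K) fun h => ct_amp h T

theorem bessel_ct {s : Type*} {b : s → K} (hb : Orthonormal ℝ b) (v : Fm κ K) (t : Finset s) :
    ∑ n ∈ t, ‖ct (b n) v‖ ^ 2 ≤ ‖v‖ ^ 2 := (fib κ K).bessel hb v t

/-- the Riesz vector -/
def rz0 (φ : K →L[ℝ] Eu κ) : Fm κ K := WithLp.toLp 2 fun i => adjoint φ (EuclideanSpace.single i 1)

theorem ct_rz0 (φ : K →L[ℝ] Eu κ) (h : K) : ct h (rz0 φ) = φ h := by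
  ext i; simp [rz0, ContinuousLinearMap.adjoint_inner_right, EuclideanSpace.inner_single_right]

theorem norm_rz0 (φ : K →L[ℝ] Eu κ) : ‖rz0 φ‖ ≤ √(Fintype.card κ) * ‖φ‖ := by
  rw [← sq_le_sq₀ (norm_nonneg _) (by positivity), mul_pow, Real.sq_sqrt (by positivity),
    PiLp.norm_sq_eq_of_L2, ← nsmul_eq_mul, ← Finset.card_univ]
  refine Finset.sum_le_card_nsmul _ _ _ fun i _ => pow_le_pow_left₀ (norm_nonneg _) ?_ 2
  exact ((adjoint φ).le_opNorm (EuclideanSpace.single i 1)).trans_eq (by simp)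

variable (κ K) in
/-- the Riesz vector -/
def rz : (K →L[ℝ] Eu κ) →L[ℝ] Fm κ K := LinearMap.mkContinuous
  { toFun := rz0
    map_add' := fun φ ψ => ext_ct' fun h => by simp only [map_add, ct_rz0]; rfl
    map_smul' := fun a φ => ext_ct' fun h => by simp only [map_smul, ct_rz0]; rfl } _ norm_rz0

theorem ct_rz (φ : K →L[ℝ] Eu κ) (h : K) : ct h (rz κ K φ) = φ h := ct_rz0 φ h

theorem norm_rz (φ : K →L[ℝ] Eu κ) : ‖rz κ K φ‖ ≤ √(Fintype.card κ) * ‖φ‖ := norm_rz0 φ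

end fib

variable {E : Type} [NormedAddCommGroup E] [NormedSpace ℝ E] [FiniteDimensional ℝ E]
  [MeasurableSpace E] [BorelSpace E]
  {HM : Type} [TopologicalSpace HM] {I : ModelWithCorners ℝ E HM}
  {M : Type} [TopologicalSpace M] [ChartedSpace HM M] [IsManifold I ∞ M]
  [MeasurableSpace M] [T2Space M] [BorelSpace M] [SecondCountableTopology M] {ι : Type} [Fintype ι]
  {E' : Type} [NormedAddCommGroup E'] [NormedSpace ℝ E'] [FiniteDimensional ℝ E']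
  [MeasurableSpace E'] [BorelSpace E']
  {HM' : Type} [TopologicalSpace HM'] {I' : ModelWithCorners ℝ E' HM'}
  {M' : Type} [TopologicalSpace M'] [ChartedSpace HM' M'] [IsManifold I' ∞ M']
  [MeasurableSpace M'] [T2Space M'] [BorelSpace M'] [SecondCountableTopology M'] {ι' : Type}
  [Fintype ι']
  {E'' : Type} [NormedAddCommGroup E''] [NormedSpace ℝ E''] [FiniteDimensional ℝ E'']
  [MeasurableSpace E''] [BorelSpace E'']
  {HM'' : Type} [TopologicalSpace HM''] {I'' : ModelWithCorners ℝ E'' HM''}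
  {M'' : Type} [TopologicalSpace M''] [ChartedSpace HM'' M''] [IsManifold I'' ∞ M'']
  [MeasurableSpace M''] [T2Space M''] [BorelSpace M''] [SecondCountableTopology M''] {ι'' : Type}
  [Fintype ι''] {F : Pre I M ι} {F' : Pre I' M' ι'} {F'' : Pre I'' M'' ι''} {j l n : ℕ}

section lft

variable (K) in
/-- **`R ⊗ 1`** -/
def lft : (HT F (Eu κ) j →L[ℝ] HT F' (Eu κ') l) →L[ℝ] HT F (Fm κ K) j →L[ℝ] HT F' (Fm κ' K) l :=
  (ten κ K F j).lft (ten κ' K F' l)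

variable {R : HT F (Eu κ) j →L[ℝ] HT F' (Eu κ') l} {A : HT F (Fm κ K) j →L[ℝ] HT F' (Fm κ' K) l}

theorem ctH_lft (h : K) (R : HT F (Eu κ) j →L[ℝ] HT F' (Eu κ') l) (u : HT F (Fm κ K) j) :
    ctH κ' K F' l h (lft K R u) = R (ctH κ K F j h u) := (ten κ K F j).c_lft (ten κ' K F' l) R u h

theorem norm_lft_le (R : HT F (Eu κ) j →L[ℝ] HT F' (Eu κ') l) (u : HT F (Fm κ K) j) :
    ‖lft K R u‖ ≤ ‖R‖ * ‖u‖ := (ten κ K F j).norm_lft_le (ten κ' K F' l) R u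

theorem opNorm_lft_le (R : HT F (Eu κ) j →L[ℝ] HT F' (Eu κ') l) : ‖lft K R‖ ≤ ‖R‖ :=
  (ten κ K F j).opNorm_lft_le (ten κ' K F' l) R

theorem norm_lft : ‖(lft K : (HT F (Eu κ) j →L[ℝ] HT F' (Eu κ') l) →L[ℝ] _)‖ ≤ 1 :=
  (ten κ K F j).norm_lft (ten κ' K F' l)

theorem lft_eq (h : ∀ k u, ctH κ' K F' l k (A u) = R (ctH κ K F j k u)) : lft K R = A :=
  (ten κ K F j).lft_eq (ten κ' K F' l) h

theorem lft_emH (R : HT F (Eu κ) j →L[ℝ] HT F' (Eu κ') l) (h : K) (x : HT F (Eu κ) j) :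
    lft K R (emH κ K F j h x) = emH κ' K F' l h (R x) := (ten κ K F j).lft_e (ten κ' K F' l) R h x

theorem lft_id : lft K (ContinuousLinearMap.id ℝ (HT F (Eu κ) j)) = ContinuousLinearMap.id ℝ _ :=
  lft_eq fun _ _ => rfl

theorem lft_lft (S : HT F' (Eu κ') l →L[ℝ] HT F'' (Eu κ'') n)
    (R : HT F (Eu κ) j →L[ℝ] HT F' (Eu κ') l) (u : HT F (Fm κ K) j) :
    lft K S (lft K R u) = lft K (S ∘L R) u := 
  (ten κ K F j).lft_lft (ten κ' K F' l) (ten κ'' K F'' n) S R u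

theorem lft_comp (S : HT F' (Eu κ') l →L[ℝ] HT F'' (Eu κ'') n)
    (R : HT F (Eu κ) j →L[ℝ] HT F' (Eu κ') l) : lft K (S ∘L R) = lft K S ∘L lft K R :=
  (ten κ K F j).lft_comp (ten κ' K F' l) (ten κ'' K F'' n) S R

theorem inner_lft {S : HT F' (Eu κ') l →L[ℝ] HT F (Eu κ) j} (h : ∀ x y, ⟪R x, y⟫_ℝ = ⟪x, S y⟫_ℝ)
    (u : HT F (Fm κ K) j) (v : HT F' (Fm κ' K) l) : ⟪lft K R u, v⟫_ℝ = ⟪u, lft K S v⟫_ℝ :=
  (ten κ K F j).inner_lft (ten κ' K F' l) h u v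

theorem fbH_lft (Q : K →L[ℝ] K') (R : HT F (Eu κ) j →L[ℝ] HT F' (Eu κ') l) (u : HT F (Fm κ K) j) :
    fbH κ' K K' F' l Q (lft K R u) = lft K' R (fbH κ K K' F j Q u) :=
  ext_ctH fun h => by simp only [ctH_fbH, ctH_lft]

/-- the function of `lft R u` is recognised by contractions -/
theorem is_lft {u : HT F (Fm κ K) j} {α : M' → Fm κ' K} (hα : AEStronglyMeasurable α F'.μ)
    (H : ∀ h, Is F' l _ (R (ctH κ K F j h u)) fun z => ct h (α z)) : Is F' l _ (lft K R u) α :=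
  is_of_ctH hα fun h => by rw [ctH_lft]; exact H h

/-- `lft R` acts on test sections by the amplified formula -/
theorem rep_lft {T : (M → Eu κ) → M' → Eu κ'} {T' : (M → Fm κ K) → M' → Fm κ' K}
    (hR : F.RepT F' R T) (hm : ∀ u : Sec I (triv M (Fm κ K)), T' u.1 ∈ Sec I' (triv M' (Fm κ' K)))
    (h : ∀ (u : Sec I (triv M (Fm κ K))) k,
      (fun z => ct k (T' u.1 z)) = T fun x => ct k (u.1 x)) : F.RepT F' (lft K R) T' :=
  fun u => ⟨⟨_, hm u⟩, rfl, ext_ctH fun k => by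
    rw [ctH_lft, RepT_toH (rep_ctH k), RepT_toH (rep_ctH k), RepT_toH hR]
    exact congrArg _ (Subtype.ext (h u k).symm)⟩

theorem lft_of_rep {T : (M → Eu κ) → M' → Eu κ'} {T' : (M → Fm κ K) → M' → Fm κ' K}
    (hR : F.RepT F' R T) (hA : F.RepT F' A T') (h : ∀ (u : Sec I (triv M (Fm κ K))) k,
      (fun z => ct k (T' u.1 z)) = T fun x => ct k (u.1 x)) : lft K R = A :=
  (rep_lft hR (RepT_mem hA) h).unique hA

theorem lft_ic (h : l ≤ j) : lft K (ic F (Eu κ) j l) = ic F (Fm κ K) j l :=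
  lft_eq fun k u => (ic_ctH h k u).symm

theorem ic_lft {j' l' : ℕ} (hj : j' ≤ j) (hl : l' ≤ l) {R' : HT F (Eu κ) j' →L[ℝ] HT F' (Eu κ') l'}
    (h : ∀ x, ic F' _ l l' (R x) = R' (ic F _ j j' x)) (u : HT F (Fm κ K) j) :
    ic F' _ l l' (lft K R u) = lft K R' (ic F _ j j' u) :=
  ext_ctH fun k => by rw [← ic_ctH hl, ctH_lft, ctH_lft, h, ic_ctH hj]

theorem lft_DH (a : ι) : lft K (DH F j (triv M (Eu κ)) a) = DH F j (triv M (Fm κ K)) a :=
  lft_eq fun k u => (DH_ctH k a u).symm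

theorem lft_smulH {f : M → ℝ} (hf : F.Cb f) :
    lft K (smulH F j (triv M (Eu κ)) f) = smulH F j (triv M (Fm κ K)) f :=
  lft_of_rep (rep_smulH hf) (rep_smulH hf) fun _ _ => funext fun _ => map_smul _ _ _

theorem lft_mulH' {T : M → CL (Eu κ) (Eu κ')} (hT : F.Cb T) :
    lft K (F.mulH j _ _ T) = F.mulH j _ _ fun x => am K (T x) :=
  lft_of_rep (rep_mulH hT (Maps.triv _)) (rep_mulH (Cb_clm _ hT) (Maps.triv _))
    fun _ _ => funext fun _ => ct_am _ _ _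

theorem lft_mulH {T : M → En κ} (hT : F.Cb T) :
    lft K (F.mulH j _ _ T) = F.mulH j _ _ fun x => amp K (T x) := by
  simp only [lft_mulH' hT, am_eq]

theorem rep_lft_mul {R : HT F (Eu κ) j →L[ℝ] HT F (Eu κ) l} {T : M → En κ} (hT : Sm I T)
    (hR : F.Rep R fun u x => T x (u x)) : F.Rep (lft K R) fun u x => amp K (T x) (u x) :=
  rep_lft hR (fun u => mem_triv (((amp K).contMDiff.comp hT).clm_apply u.2.1)
    (u.2.2.1.mono fun x hx h => hx (by simp only [h, map_zero]))) fun _ _ =>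
    funext fun _ => ct_amp _ _ _

/-- composition on the left -/
def pc (N : Type) [NormedAddCommGroup N] [NormedSpace ℝ N] {X Y : Type} [NormedAddCommGroup X]
    [NormedSpace ℝ X] [NormedAddCommGroup Y] [NormedSpace ℝ Y] (L : CL X Y) : CL (CL N X) (CL N Y) :=
  ContinuousLinearMap.compL ℝ N X Y L

/-- products -/
theorem ctH_bilH {N : Type} [NormedAddCommGroup N] [InnerProductSpace ℝ N] {p : M → N →L[ℝ] N}
    {S : ℝ} (hS : Sup F S) (hl : Lev n j l) {β : M → CL N (CL (Eu κ) (Eu κ'))}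
    {β' : M → CL N (CL (Fm κ K) (Fm κ' K))} (hβ : F.Cb β) (hβ' : F.Cb β')
    (h : ∀ k x a v, ct k (β' x a v) = β x a (ct k v)) (k : K) (a : F.H n p) (u : HT F (Fm κ K) j) :
    ctH κ' K F l k (F.bilH n j p _ _ l β' a u) = F.bilH n j p _ _ l β a (ctH κ K F j k u) := by
  induction a, u using H_ind₂ with
  | hP => exact isClosed_eq (by fun_prop) (by fun_prop)
  | h a u =>
    rw [Rep₂_toH (rep_bilH hS hl hβ' (Maps₂.triv _)), RepT_toH (rep_ctH k), RepT_toH (rep_ctH k),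
      Rep₂_toH (rep_bilH hS hl hβ (Maps₂.triv _))]
    exact congrArg _ (Subtype.ext (funext fun _ => h _ _ _ _))

theorem lft_bilH {N : Type} [NormedAddCommGroup N] [InnerProductSpace ℝ N] {p : M → N →L[ℝ] N}
    {S : ℝ} (hS : Sup F S) (hl : Lev n j l) {β : M → CL N (CL (Eu κ) (Eu κ'))} (hβ : F.Cb β)
    (a : F.H n p) :
    lft K (F.bilH n j p _ _ l β a) = F.bilH n j p _ _ l (fun x => am K ∘L β x) a :=
  lft_eq fun k u => ctH_bilH hS hl hβ
    (Cb_clm (pc N (am K : CL (CL (Eu κ) (Eu κ')) (CL (Fm κ K) (Fm κ' K)))) hβ)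
    (fun _ _ _ _ => ct_am _ _ _) k a u

end lft

section res
variable {G : Fr I M ι}

theorem rep_lft_Dt (h : Act (Eu κ) F G) (c : ι) : F.Rep (lft K (Dt (Eu κ) F G j c)) (G.D c) :=
  rep_lft (h.D j c) (fun u => mem_triv (G.sm_D u.2.1 c) (G.hcs_D u.2.2.1 c))
    fun u k => (D_clm G.toPre (ct k) u.2.1 c).symm

theorem lft_Dt (h : Act (Eu κ) F G) (c : ι) : lft K (Dt (Eu κ) F G j c) = Dt (Fm κ K) F G j c :=
  (rep_lft_Dt h c).liftT_eq.symm

theorem act_fm (h : Act (Eu κ) F G) : Act (Fm κ K) F G :=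
  ⟨fun _ c => lft_Dt (K := K) h c ▸ rep_lft_Dt h c, h.dv⟩

theorem lft_Nb (h : Act (Eu κ) F G) (T : HT F (Eu κ) j →L[ℝ] HT F (Eu κ) j) (c : ι) :
    lft K (Nb F G j T c) = Nb F G j (lft K T) c := by
  rw [Nb, Nb, map_add, lft_comp, lft_Dt h, lft_ic j.le_succ]

/-- a map acting on families -/
def pm (ι : Type) [Fintype ι] {X Y : Type} [NormedAddCommGroup X] [NormedSpace ℝ X]
    [NormedAddCommGroup Y] [NormedSpace ℝ Y] (L : CL X Y) : CL (ι → X) (ι → Y) :=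
  ContinuousLinearMap.pi fun c => L ∘L ContinuousLinearMap.proj c

variable (K) in
/-- amplified multipliers -/
def lM : Mu F (Eu κ) j →L[ℝ] Mu F (Fm κ K) j :=
  (pm ι (lft K : CL (CL (HT F (Eu κ) j) (HT F (Eu κ) j)) (CL (HT F (Fm κ K) j) (HT F (Fm κ K) j)))).prodMap
    (pm ι (lft K : CL (CL (HT F (Eu κ) (j + 1)) (HT F (Eu κ) (j + 1)))
      (CL (HT F (Fm κ K) (j + 1)) (HT F (Fm κ K) (j + 1)))))

theorem lM_fst (T : Mu F (Eu κ) j) (c : ι) : (lM K T).1 c = lft K (T.1 c) := rfl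

theorem lM_snd (T : Mu F (Eu κ) j) (c : ι) : (lM K T).2 c = lft K (T.2 c) := rfl

theorem lft_QQ (h : Act (Eu κ) F G) (T : Mu F (Eu κ) j) :
    lft K (QQ F G j T) = QQ F G j (lM K T) := by
  simp only [QQ, map_sub, map_sum, lft_comp, map_add, lft_Nb h, lft_smulH (h.dv _),
    lft_ic j.le_succ, lft_ic (Nat.le_add_right j 2), lM_fst, lM_snd]

theorem repM_lM {T : Mu F (Eu κ) j} {A : ι → M → En κ} (hA : ∀ c, Sm I (A c)) (h : RepM F T A) :
    RepM F (lM K T) fun c x => amp K (A c x) :=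
  ⟨fun c => rep_lft_mul (hA c) (h.1 c), fun c => rep_lft_mul (hA c) (h.2 c)⟩

end res

section flp
variable (κ κ' F F' j l)

/-- **exchange of the two factors** -/
def flp : HT F (Fm κ (HT F' (Eu κ') l)) j →ₗᵢ[ℝ] HT F' (Fm κ' (HT F (Eu κ) j)) l :=
  (ten κ (HT F' (Eu κ') l) F j).flip (ten κ' (HT F (Eu κ) j) F' l)

variable {κ κ' F F' j l}

theorem inner_flp (u : HT F (Fm κ (HT F' (Eu κ') l)) j) (x : HT F (Eu κ) j) (h : HT F' (Eu κ') l) :
    ⟪ctH κ' _ F' l x (flp κ κ' F F' j l u), h⟫_ℝ = ⟪ctH κ _ F j h u, x⟫_ℝ :=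
  (ten κ (HT F' (Eu κ') l) F j).inner_flip (ten κ' (HT F (Eu κ) j) F' l) u x h

theorem ctH_flp {u : HT F (Fm κ (HT F' (Eu κ') l)) j} {T : HT F' (Eu κ') l →L[ℝ] HT F (Eu κ) j}
    (H : ∀ h, ctH κ _ F j h u = T h) (x : HT F (Eu κ) j) :
    ctH κ' _ F' l x (flp κ κ' F F' j l u) = adjoint T x :=
  ext_inner_right ℝ fun h => by rw [inner_flp, H, ContinuousLinearMap.adjoint_inner_left,
    real_inner_comm]

theorem flp_flp (u : HT F (Fm κ (HT F' (Eu κ') l)) j) :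
    flp κ' κ F' F l j (flp κ κ' F F' j l u) = u :=
  (ten κ (HT F' (Eu κ') l) F j).flip_flip (ten κ' (HT F (Eu κ) j) F' l) u

theorem flp_emH (h : HT F' (Eu κ') l) (x : HT F (Eu κ) j) :
    flp κ κ' F F' j l (emH κ _ F j h x) = emH κ' _ F' l x h :=
  (ten κ (HT F' (Eu κ') l) F j).flip_e (ten κ' (HT F (Eu κ) j) F' l) h x

theorem flp_lft (R : HT F (Eu κ) j →L[ℝ] HT F'' (Eu κ'') n) (u : HT F (Fm κ (HT F' (Eu κ') l)) j) :
    flp κ'' κ' F'' F' n l (lft _ R u) = fbH κ' _ _ F' l R (flp κ κ' F F' j l u) :=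
  ext_ctH fun x => ext_inner_right ℝ fun h => by
    rw [inner_flp, ctH_lft, ctH_fbH, inner_flp, ContinuousLinearMap.adjoint_inner_right]

theorem flp_fbH (R : HT F' (Eu κ') l →L[ℝ] HT F'' (Eu κ'') n)
    (u : HT F (Fm κ (HT F' (Eu κ') l)) j) :
    flp κ κ'' F F'' j n (fbH κ _ _ F j R u) = lft _ R (flp κ κ' F F' j l u) := by
  conv_lhs => rw [← flp_flp u, ← flp_lft, flp_flp]

end flp

section ker

theorem sq_of_is {V : Type} [NormedAddCommGroup V] [InnerProductSpace ℝ V] [CompleteSpace V]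
    {p : M → V →L[ℝ] V} {h : F.H 0 p} {u : M → V} (H : Is F 0 p h u) : ‖h‖ ^ 2 = ∫ z, ‖u z‖ ^ 2 ∂F.μ := by
  rw [← norm_toL2_zero, ← real_inner_self_eq_norm_sq, L2.inner_def]
  refine integral_congr_ae ?_
  filter_upwards [H] with z hz
  rw [hz, real_inner_self_eq_norm_sq]

/-- **operators with a square integrable kernel** -/
theorem exists_of_ker (φ : K →L[ℝ] HT F (Eu κ) 0) {α : M → Fm κ K}
    (hα : ∀ h, Is F 0 _ (φ h) fun z => ct h (α z)) {g : M → ℝ} (hg : Integrable g F.μ)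
    (hb : ∀ᵐ z ∂F.μ, ‖α z‖ ^ 2 ≤ g z) :
    ∃ u, (∀ h, ctH κ K F 0 h u = φ h) ∧ ‖u‖ ≤ √(∫ z, g z ∂F.μ) := by
  refine (ten κ K F 0).exists_of_bd φ (Real.sqrt_nonneg _) fun s hs t => ?_
  have i := fun n : s => (memLp_two_iff_integrable_sq_norm (hα n).memLp.1).1 (hα n).memLp
  simp only [fun n : s => sq_of_is (hα n)]
  rw [← integral_finsetSum _ fun n _ => i n, Real.sq_sqrt
    (integral_nonneg_of_ae (hb.mono fun z hz => (sq_nonneg _).trans hz))]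
  exact integral_mono_ae (integrable_finsetSum _ fun n _ => i n) hg
    (hb.mono fun z hz => (bessel_ct hs _ t).trans hz)

variable (F j) in
/-- the field of an operator with values in continuous sections -/
def evF (z : M) : (K →L[ℝ] HT F (Eu κ) j) →L[ℝ] Fm κ K :=
  rz κ K ∘L ContinuousLinearMap.compL ℝ K _ _ (F.ev j _ z)

theorem ct_evF (h : K) (T : K →L[ℝ] HT F (Eu κ) j) (z : M) :
    ct h (evF F j z T) = F.val j _ (T h) z := ct_rz _ h

variable {S : ℝ}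

theorem norm_evF_le (hS : Sup F S) (hj : 4 ≤ j) (T : K →L[ℝ] HT F (Eu κ) j) (z : M) :
    ‖evF F j z T‖ ≤ √(Fintype.card κ) * √|S| * ‖T‖ := by
  rw [mul_assoc]
  exact (norm_rz _).trans (mul_le_mul_of_nonneg_left ((ContinuousLinearMap.opNorm_comp_le _ _).trans
    (mul_le_mul_of_nonneg_right (ev_spec hS hj z).2 (norm_nonneg _))) (Real.sqrt_nonneg _))

theorem lev0 (hj : 4 ≤ j) : Lev 0 j 0 := ⟨le_rfl, Nat.zero_le _, by omega⟩

variable (κ F j) in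
/-- the product of an `L²` function and a continuous section -/
def sL : HT F ℝ 0 →L[ℝ] HT F (Eu κ) j →L[ℝ] HT F (Eu κ) 0 :=
  F.bilH 0 j _ _ _ 0 fun _ => lsmul ℝ ℝ

theorem is_sL (hS : Sup F S) (hj : 4 ≤ j) {a : HT F ℝ 0} {f : M → ℝ} (H : Is F 0 _ a f)
    (x : HT F (Eu κ) j) : Is F 0 _ (sL κ F j a x) fun z => f z • F.val j _ x z :=
  H.bilH hS (lev0 hj) (Cb_const _) (Maps₂.triv _) (Is.val hS hj x)

theorem exists_bE (hS : Sup F S) (hj : 4 ≤ j) (a : HT F ℝ 0) (T : K →L[ℝ] HT F (Eu κ) j) :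
    ∃ u, (∀ h, ctH κ K F 0 h u = sL κ F j a (T h)) ∧
      ‖u‖ ≤ √(Fintype.card κ) * √|S| * ‖a‖ * ‖T‖ := by
  have H : Is F 0 _ a (F.toL2 0 _ a) := EventuallyEq.rfl
  obtain ⟨u, hu, hn⟩ := exists_of_ker (sL κ F j a ∘L T) (α := fun z => F.toL2 0 _ a z • evF F j z T)
    (fun h => by simp only [map_smul, ct_evF]; exact is_sL hS hj H _)
    (((memLp_two_iff_integrable_sq_norm H.memLp.1).1 H.memLp).const_mul
      ((√(Fintype.card κ) * √|S| * ‖T‖) ^ 2)) (.of_forall fun z => by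
      rw [norm_smul, mul_pow, mul_comm]
      exact mul_le_mul_of_nonneg_right
        (pow_le_pow_left₀ (norm_nonneg _) (norm_evF_le hS hj T z) 2) (sq_nonneg _))
  refine ⟨u, hu, hn.trans_eq ?_⟩
  rw [integral_const_mul, ← sq_of_is H, ← mul_pow, Real.sqrt_sq (by positivity)]
  ring

variable (κ K F j) in
open Classical in
/-- **`(a, T) ↦ a · evF T`** -/
def bE : HT F ℝ 0 →L[ℝ] (K →L[ℝ] HT F (Eu κ) j) →L[ℝ] HT F (Fm κ K) 0 :=
  if h : ∃ B : HT F ℝ 0 →L[ℝ] (K →L[ℝ] HT F (Eu κ) j) →L[ℝ] HT F (Fm κ K) 0,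
    ∀ a T h, ctH κ K F 0 h (B a T) = sL κ F j a (T h) then h.choose else 0

theorem ctH_bE (hS : Sup F S) (hj : 4 ≤ j) (a : HT F ℝ 0) (T : K →L[ℝ] HT F (Eu κ) j) (h : K) :
    ctH κ K F 0 h (bE κ K F j a T) = sL κ F j a (T h) := by
  choose B hB hn using exists_bE (κ := κ) (K := K) hS hj
  have : ∃ B : HT F ℝ 0 →L[ℝ] (K →L[ℝ] HT F (Eu κ) j) →L[ℝ] HT F (Fm κ K) 0,
      ∀ a T h, ctH κ K F 0 h (B a T) = sL κ F j a (T h) :=
    ⟨LinearMap.mkContinuous₂ (LinearMap.mk₂ ℝ B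
      (fun _ _ _ => ext_ctH fun _ => by simp only [map_add, hB, add_apply])
      (fun _ _ _ => ext_ctH fun _ => by simp only [map_smul, hB, smul_apply])
      (fun _ _ _ => ext_ctH fun _ => by simp only [map_add, hB, add_apply])
      (fun _ _ _ => ext_ctH fun _ => by simp only [map_smul, hB, smul_apply])) _ hn, hB⟩
  rw [bE, dif_pos this]
  exact this.choose_spec a T h

theorem norm_bE_le (hS : Sup F S) (hj : 4 ≤ j) (a : HT F ℝ 0) (T : K →L[ℝ] HT F (Eu κ) j) :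
    ‖bE κ K F j a T‖ ≤ √(Fintype.card κ) * √|S| * ‖a‖ * ‖T‖ := by
  obtain ⟨u, hu, hn⟩ := exists_bE hS hj a T
  rwa [ext_ctH fun h => (ctH_bE hS hj a T h).trans (hu h).symm]

theorem is_bE (hS : Sup F S) (hj : 4 ≤ j) {a : HT F ℝ 0} {f : M → ℝ} (H : Is F 0 _ a f)
    {T : K →L[ℝ] HT F (Eu κ) j} {α : M → Fm κ K} (hα : AEStronglyMeasurable α F.μ)
    (h : ∀ k, Is F j _ (T k) fun z => ct k (α z)) :
    Is F 0 _ (bE κ K F j a T) fun z => f z • α z :=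
  is_of_ctH (H.memLp.1.smul hα) fun k => by
    rw [ctH_bE hS hj]
    simp only [map_smul]
    exact H.bilH hS (lev0 hj) (Cb_const _) (Maps₂.triv _) (h k)

/-- the kernel of the adjoint -/
theorem ctH_flp_bE (hS : Sup F S) (hj : 4 ≤ j) (a : HT F ℝ 0)
    (T : HT F' (Eu κ') l →L[ℝ] HT F (Eu κ) j) (x : HT F (Eu κ) 0) :
    ctH κ' _ F' l x (flp κ κ' F F' 0 l (bE κ _ F j a T)) = adjoint (sL κ F j a ∘L T) x :=
  ctH_flp (ctH_bE hS hj a T) x

theorem fbH_bE (hS : Sup F S) (hj : 4 ≤ j) (a : HT F ℝ 0) (T : K →L[ℝ] HT F (Eu κ) j)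
    (Q : K →L[ℝ] K') : fbH κ K K' F 0 Q (bE κ K F j a T) = bE κ K' F j a (T ∘L adjoint Q) :=
  ext_ctH fun h => by rw [ctH_fbH, ctH_bE hS hj, ctH_bE hS hj]; rfl

end ker

end Crest.Agent.X212.Ten12
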