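import Crest.Agent.X212.Ten12.Abs
import Crest.Agent.X212.Cyc79.Fld
import Crest.Agent.X212.Mon62.Res

/-!
# Row 212, CYC-TEN (helper12): Sobolev spaces with values in the Hilbert fibre `Fm κ K`

`HT F (Fm κ K) j = HT F (Eu κ) j ⊗ K`.
-/

set_option autoImplicit false
set_option linter.unusedSectionVars false
noncomputable section
open scoped Manifold ContDiff Topology InnerProductSpace
open MeasureTheory Set Function Filter

namespace Crest.Agent.X212.Ten12
open An An.Pre Sob92 Cyc79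
open Mon62 (HT ic)
open ContinuousLinearMap (adjoint)

section fib
variable {κ : Type} [Fintype κ] [DecidableEq κ] {K K' : Type} [NormedAddCommGroup K]
  [InnerProductSpace ℝ K] [NormedAddCommGroup K'] [InnerProductSpace ℝ K']

theorem norm_ct_le (h : K) (v : Fm κ K) : ‖ct h v‖ ≤ ‖h‖ * ‖v‖ := by
  rw [← sq_le_sq₀ (norm_nonneg _) (by positivity), mul_pow, PiLp.norm_sq_eq_of_L2,
    PiLp.norm_sq_eq_of_L2, Finset.mul_sum]
  refine Finset.sum_le_sum fun i _ => ?_
  rw [← mul_pow, ct_apply]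
  exact pow_le_pow_left₀ (norm_nonneg _) (norm_inner_le_norm _ _) 2

theorem norm_fb_le (R : K →L[ℝ] K') (v : Fm κ K) : ‖fb R v‖ ≤ ‖R‖ * ‖v‖ := by
  rw [← sq_le_sq₀ (norm_nonneg _) (by positivity), mul_pow, PiLp.norm_sq_eq_of_L2,
    PiLp.norm_sq_eq_of_L2, Finset.mul_sum]
  refine Finset.sum_le_sum fun i _ => ?_
  rw [← mul_pow, fb_apply]
  exact pow_le_pow_left₀ (norm_nonneg _) (R.le_opNorm _) 2

variable (κ K) in
/-- `ct` as a continuous linear map -/
def ctL : K →L[ℝ] CL (Fm κ K) (Eu κ) := LinearMap.mkContinuous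
  { toFun := ct
    map_add' := fun h h' => by ext v i; simp [inner_add_left]
    map_smul' := fun a h => by ext v i; simp [inner_smul_left] } 1
  fun h => ContinuousLinearMap.opNorm_le_bound _ (by positivity) fun v => by
    rw [one_mul]; exact norm_ct_le h v

variable (κ K K') in
/-- `fb` as a continuous linear map -/
def fbL : (K →L[ℝ] K') →L[ℝ] CL (Fm κ K) (Fm κ K') := LinearMap.mkContinuous
  { toFun := fb
    map_add' := fun h h' => by ext v i; simp
    map_smul' := fun a h => by ext v i; simp } 1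
  fun h => ContinuousLinearMap.opNorm_le_bound _ (by positivity) fun v => by
    rw [one_mul]; exact norm_fb_le h v

@[simp] theorem ctL_apply (h : K) : ctL κ K h = ct h := rfl

@[simp] theorem fbL_apply (R : K →L[ℝ] K') : fbL κ K K' R = fb R := rfl

/-- `x ↦ x ⊗ h` -/
def em (h : K) : CL (Eu κ) (Fm κ K) :=
  (PiLp.continuousLinearEquiv 2 ℝ fun _ : κ => K).symm.toContinuousLinearMap ∘L
    ContinuousLinearMap.pi fun i => (PiLp.proj 2 (fun _ : κ => ℝ) i).smulRight h

@[simp] theorem em_apply (h : K) (x : Eu κ) (i : κ) : em h x i = x i • h := rfl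

theorem inner_ct (h : K) (v : Fm κ K) (x : Eu κ) : ⟪ct h v, x⟫_ℝ = ⟪v, em h x⟫_ℝ := by
  simp [PiLp.inner_apply, inner_smul_right, real_inner_comm h]

theorem ct_em (h h' : K) (x : Eu κ) : ct h (em h' x) = ⟪h, h'⟫_ℝ • x := by
  ext i; simp [inner_smul_right, mul_comm]

theorem norm_em (h : K) (x : Eu κ) : ‖em h x‖ = ‖h‖ * ‖x‖ := by
  rw [← sq_eq_sq₀ (norm_nonneg _) (by positivity), ← real_inner_self_eq_norm_sq, ← inner_ct, ct_em,
    real_inner_smul_left, real_inner_self_eq_norm_sq, real_inner_self_eq_norm_sq, mul_pow]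

variable (κ K) in
/-- `em` as a continuous linear map -/
def emL : K →L[ℝ] CL (Eu κ) (Fm κ K) := LinearMap.mkContinuous
  { toFun := em
    map_add' := fun h h' => by ext v i; simp
    map_smul' := fun a h => by ext v i; simp [smul_comm a] } 1
  fun h => ContinuousLinearMap.opNorm_le_bound _ (by positivity) fun v => by
    rw [one_mul]; exact (norm_em h v).le

@[simp] theorem emL_apply (h : K) : emL κ K h = em h := rfl

variable (κ K) in
/-- the fibre is a tensor product -/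
def fib : Ten K (Eu κ) (Fm κ K) :=
  ⟨ctL κ K, emL κ K, inner_ct, ct_em, fun _ h => ext_ct' fun k => (h k).trans (map_zero _).symm⟩

theorem fb_em (R : K →L[ℝ] K') (h : K) (x : Eu κ) : fb R (em h x) = em (R h) x := by
  ext i; simp

theorem ct_fb' [CompleteSpace K] [CompleteSpace K'] (h : K') (R : K →L[ℝ] K') (v : Fm κ K) :
    ct h (fb R v) = ct (adjoint R h) v := by
  ext i; simp [ContinuousLinearMap.adjoint_inner_left]

/-- a function which is contracted to zero vanishes -/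
theorem ae_zero_of_ct [CompleteSpace K] {α : Type*} [MeasurableSpace α] {μ : Measure α}
    {f : α → Fm κ K} (hf : AEStronglyMeasurable f μ) (h : ∀ k, ∀ᵐ y ∂μ, ct k (f y) = 0) :
    f =ᵐ[μ] 0 := by
  obtain ⟨t, ht, h't⟩ := hf.isSeparable_ae_range
  refine ae_eq_zero_of_forall_dual_of_isSeparable ℝ ht (fun c => ?_) h't
  obtain ⟨η, rfl⟩ := (InnerProductSpace.toDual ℝ (Fm κ K)).surjective c
  filter_upwards [ae_all_iff.2 fun i => h (η i)] with y hy
  simp only [InnerProductSpace.toDual_apply_apply, inner_fm, hy, map_zero, Finset.sum_const_zero,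
    Pi.zero_apply]

end fib

variable {E : Type} [NormedAddCommGroup E] [NormedSpace ℝ E] [FiniteDimensional ℝ E]
  [MeasurableSpace E] [BorelSpace E]
  {HM : Type} [TopologicalSpace HM] {I : ModelWithCorners ℝ E HM}
  {M : Type} [TopologicalSpace M] [ChartedSpace HM M] [IsManifold I ∞ M]
  [MeasurableSpace M] [T2Space M] [BorelSpace M] [SecondCountableTopology M] {ι : Type} [Fintype ι]
  {E' : Type} [NormedAddCommGroup E'] [NormedSpace ℝ E'] [FiniteDimensional ℝ E']
  [MeasurableSpace E'] [BorelSpace E']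
  {HM' : Type} [TopologicalSpace HM'] {I' : ModelWithCorners ℝ E' HM'}
  {M' : Type} [TopologicalSpace M'] [ChartedSpace HM' M'] [IsManifold I' ∞ M']
  [MeasurableSpace M'] [T2Space M'] [BorelSpace M'] [SecondCountableTopology M'] {ι' : Type}
  [Fintype ι']
  {U V W : Type} [NormedAddCommGroup U] [InnerProductSpace ℝ U]
  [NormedAddCommGroup V] [InnerProductSpace ℝ V] [NormedAddCommGroup W] [InnerProductSpace ℝ W]

section cst
variable {F : Pre I M ι} {j l : ℕ}

theorem sm_clm (L : V →L[ℝ] W) {u : M → V} (hu : Sm I u) : Sm I fun x => L (u x) :=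
  L.contMDiff.comp hu

theorem rep_cst (L : V →L[ℝ] W) : F.Rep (F.mulH j (triv M V) (triv M W) fun _ => L)
    (fun u x => L (u x)) ∧ ‖F.mulH j (triv M V) (triv M W) fun _ => L‖ ≤ ‖L‖ :=
  rep_liftT (fun _ hu => mem_triv (sm_clm L hu.1) (hu.2.1.comp_left (map_zero L)))
    (fun _ _ _ _ => funext fun _ => map_add L _ _) (fun _ _ _ => funext fun _ => map_smul L _ _)
    (norm_nonneg L) fun u hu => nrm_le_of_sq (mul_nonneg (norm_nonneg _) (nrm_nonneg _ _)) (by
      rw [mul_pow, nrm_sq]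
      exact n2_clm_le F.sm L j hu.1 (FL_of_hcs j hu.1 hu.2.1))

variable (F V W j) in
/-- constant coefficients -/
def cH : (V →L[ℝ] W) →L[ℝ] HT F V j →L[ℝ] HT F W j := LinearMap.mkContinuous
  { toFun := fun L => F.mulH j (triv M V) (triv M W) fun _ => L
    map_add' := fun L L' => RepT_eq (rep_cst _).1 (RepT_add (rep_cst L).1 (rep_cst L').1)
      fun _ => rfl
    map_smul' := fun a L => RepT_eq (rep_cst _).1 (RepT_smul a (rep_cst L).1) fun _ => rfl } 1
  fun L => by rw [one_mul]; exact (rep_cst L).2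

theorem cH_eq (L : V →L[ℝ] W) : cH V W F j L = F.mulH j (triv M V) (triv M W) fun _ => L := rfl

theorem rep_cH (L : V →L[ℝ] W) : F.Rep (cH V W F j L) fun u x => L (u x) := (rep_cst L).1

theorem norm_cH_le (L : V →L[ℝ] W) (u : HT F V j) : ‖cH V W F j L u‖ ≤ ‖L‖ * ‖u‖ :=
  (cH V W F j L).le_of_opNorm_le (rep_cst L).2 u

theorem cH_cH (L' : W →L[ℝ] U) (L : V →L[ℝ] W) (u : HT F V j) :
    cH W U F j L' (cH V W F j L u) = cH V U F j (L' ∘L L) u :=
  DFunLike.congr_fun (RepT_eq (RepT_comp (rep_cH L') (rep_cH L)) (rep_cH _) fun _ => rfl) u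

theorem cH_id (u : HT F V j) : cH V V F j (ContinuousLinearMap.id ℝ V) u = u :=
  mulH_id (fun _ _ _ => rfl) u

theorem ic_cH (h : l ≤ j) (L : V →L[ℝ] W) (u : HT F V j) :
    ic F W j l (cH V W F j L u) = cH V W F l L (ic F V j l u) :=
  Rep_incl (rep_cH L) (rep_cH L) h h u

theorem DH_cH (L : V →L[ℝ] W) (a : ι) (u : HT F V (j + 1)) :
    DH F j _ a (cH V W F (j + 1) L u) = cH V W F j L (DH F j _ a u) :=
  DFunLike.congr_fun (RepT_eq (RepT_comp (rep_DH a) (rep_cH L)) (RepT_comp (rep_cH L) (rep_DH a))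
    fun u => D_clm F L u.2.1 a) u

theorem ip_clm {L : V →L[ℝ] W} {L' : W →L[ℝ] V} (h : ∀ v w, ⟪L v, w⟫_ℝ = ⟪v, L' w⟫_ℝ) (j : ℕ) :
    ∀ {u : M → V} {v : M → W}, Sm I u → Sm I v →
      F.ip j (fun x => L (u x)) v = F.ip j u fun x => L' (v x) := by
  induction j with
  | zero => intro u v _ _; simp only [ip, h]
  | succ j ih =>
    intro u v hu hv
    simp only [ip, h, D_clm F L hu, D_clm F L' hv, fun a => ih (F.sm_D hu a) (F.sm_D hv a)]

/-- constant coefficients have the same adjoint on all levels -/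
theorem inner_cH {L : V →L[ℝ] W} {L' : W →L[ℝ] V} (h : ∀ v w, ⟪L v, w⟫_ℝ = ⟪v, L' w⟫_ℝ)
    (u : HT F V j) (v : HT F W j) : ⟪cH V W F j L u, v⟫_ℝ = ⟪u, cH W V F j L' v⟫_ℝ := by
  induction u, v using H_ind₂ with
  | hP => exact isClosed_eq (by fun_prop) (by fun_prop)
  | h u v =>
    rw [RepT_toH (rep_cH L), RepT_toH (rep_cH L'), inner_toH, inner_toH]
    exact ip_clm h j u.2.1 v.2.1

end cst

variable {κ κ' : Type} [Fintype κ] [DecidableEq κ] [Fintype κ'] [DecidableEq κ']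
  {K K' K'' : Type} [NormedAddCommGroup K] [InnerProductSpace ℝ K] [CompleteSpace K]
  [NormedAddCommGroup K'] [InnerProductSpace ℝ K'] [CompleteSpace K']
  [NormedAddCommGroup K''] [InnerProductSpace ℝ K''] [CompleteSpace K'']

section ten
variable (F : Pre I M ι) (j : ℕ)

variable (κ K) in
/-- contraction -/
def ctH : K →L[ℝ] HT F (Fm κ K) j →L[ℝ] HT F (Eu κ) j := cH _ _ F j ∘L ctL κ K

variable (κ K) in
/-- its adjoint -/
def emH : K →L[ℝ] HT F (Eu κ) j →L[ℝ] HT F (Fm κ K) j := cH _ _ F j ∘L emL κ K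

variable (κ K K') in
/-- `1 ⊗ R` -/
def fbH : (K →L[ℝ] K') →L[ℝ] HT F (Fm κ K) j →L[ℝ] HT F (Fm κ K') j := cH _ _ F j ∘L fbL κ K K'

variable {F j} {l : ℕ}

theorem ctH_eq (h : K) : ctH κ K F j h = F.mulH j _ _ fun _ => ct h := rfl

theorem emH_eq (h : K) : emH κ K F j h = F.mulH j _ _ fun _ => em h := rfl

theorem fbH_eq (R : K →L[ℝ] K') : fbH κ K K' F j R = F.mulH j _ _ fun _ => fb R := rfl

theorem rep_ctH (h : K) : F.Rep (ctH κ K F j h) fun u x => ct h (u x) := rep_cH _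

theorem rep_emH (h : K) : F.Rep (emH κ K F j h) fun u x => em h (u x) := rep_cH _

theorem rep_fbH (R : K →L[ℝ] K') : F.Rep (fbH κ K K' F j R) fun u x => fb R (u x) := rep_cH _

theorem ic_ctH (hl : l ≤ j) (h : K) (u : HT F (Fm κ K) j) :
    ic F _ j l (ctH κ K F j h u) = ctH κ K F l h (ic F _ j l u) := ic_cH hl _ u

theorem DH_ctH (h : K) (a : ι) (u : HT F (Fm κ K) (j + 1)) :
    DH F j _ a (ctH κ K F (j + 1) h u) = ctH κ K F j h (DH F j _ a u) := DH_cH _ a u

theorem ic_fbH (hl : l ≤ j) (R : K →L[ℝ] K') (u : HT F (Fm κ K) j) :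
    ic F _ j l (fbH κ K K' F j R u) = fbH κ K K' F l R (ic F _ j l u) := ic_cH hl _ u

theorem Is.ctH {u : HT F (Fm κ K) j} {α : M → Fm κ K} (H : Is F j _ u α) (h : K) :
    Is F j _ (ctH κ K F j h u) fun z => ct h (α z) := H.mulH (Cb_const _) (Maps.triv _)

theorem Is.fbH {u : HT F (Fm κ K) j} {α : M → Fm κ K} (H : Is F j _ u α) (R : K →L[ℝ] K') :
    Is F j _ (fbH κ K K' F j R u) fun z => fb R (α z) := H.mulH (Cb_const _) (Maps.triv _)

/-- an element is recognised by its contractions -/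
theorem is_of_ctH {u : HT F (Fm κ K) j} {α : M → Fm κ K} (hα : AEStronglyMeasurable α F.μ)
    (H : ∀ h, Is F j _ (ctH κ K F j h u) fun z => ct h (α z)) : Is F j _ u α := by
  have := ae_zero_of_ct ((Lp.aestronglyMeasurable (F.toL2 j _ u)).sub hα) fun k => by
    filter_upwards [H k, Is.ctH (u := u) EventuallyEq.rfl k] with y a b
    rw [Pi.sub_apply, map_sub, ← a, ← b, sub_self]
  filter_upwards [this] with y hy using sub_eq_zero.1 hy

theorem sep_ctH (j : ℕ) : ∀ u : HT F (Fm κ K) j, (∀ h, ctH κ K F j h u = 0) → u = 0 := by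
  have h0 : ∀ u : HT F (Fm κ K) 0, (∀ h, ctH κ K F 0 h u = 0) → u = 0 := fun u hu => by
    have : Is F 0 _ u 0 := is_of_ctH aestronglyMeasurable_zero fun h => by
      rw [hu, show (fun z : M => ct h ((0 : M → Fm κ K) z)) = 0 from funext fun _ => map_zero _]
      exact Is.zero
    rw [← norm_eq_zero, ← norm_toL2_zero, norm_eq_zero, Lp.eq_zero_iff_ae_eq_zero]
    exact this
  induction j with
  | zero => exact h0
  | succ j ih =>
    intro u hu
    have a0 := h0 (ic F _ (j + 1) 0 u) fun h => by rw [← ic_ctH (Nat.zero_le _), hu, map_zero]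
    have a1 := fun a => ih (DH F j _ a u) fun h => by rw [← DH_ctH, hu, map_zero]
    have : ‖u‖ ^ 2 = 0 := by
      rw [norm_succ_sq]
      simp only [a1, show F.incl (j + 1) 0 _ u = 0 from a0]
      simp
    exact norm_eq_zero.1 (pow_eq_zero_iff two_ne_zero |>.1 this)

variable (κ K F j) in
/-- **the tensor product structure** -/
def ten : Ten K (HT F (Eu κ) j) (HT F (Fm κ K) j) where
  c := ctH κ K F j
  e := emH κ K F j
  adj h := inner_cH (inner_ct h)
  ce h h' x := (cH_cH (ct h) (em h') x).trans (by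
    rw [show ct h ∘L em h' = ⟪h, h'⟫_ℝ • ContinuousLinearMap.id ℝ (Eu κ) from
      ContinuousLinearMap.ext (ct_em h h'), map_smul, smul_apply, cH_id])
  sep := sep_ctH j

theorem ext_ctH {u v : HT F (Fm κ K) j} (h : ∀ k, ctH κ K F j k u = ctH κ K F j k v) : u = v :=
  (ten κ K F j).ext' h

theorem inner_ctH (h : K) (u : HT F (Fm κ K) j) (x : HT F (Eu κ) j) :
    ⟪ctH κ K F j h u, x⟫_ℝ = ⟪u, emH κ K F j h x⟫_ℝ := (ten κ K F j).adj h u x

theorem ctH_emH (h h' : K) (x : HT F (Eu κ) j) :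
    ctH κ K F j h (emH κ K F j h' x) = ⟪h, h'⟫_ℝ • x := (ten κ K F j).ce h h' x

theorem norm_ctH_le (h : K) (u : HT F (Fm κ K) j) : ‖ctH κ K F j h u‖ ≤ ‖h‖ * ‖u‖ :=
  (ten κ K F j).norm_c_le h u

theorem norm_emH (h : K) (x : HT F (Eu κ) j) : ‖emH κ K F j h x‖ = ‖h‖ * ‖x‖ :=
  (ten κ K F j).norm_e h x

/-- **Parseval** -/
theorem parseval {s : Type*} (b : HilbertBasis s ℝ K) (u : HT F (Fm κ K) j) :
    HasSum (fun n => ‖ctH κ K F j (b n) u‖ ^ 2) (‖u‖ ^ 2) := (ten κ K F j).parseval b u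

theorem ctH_fbH (h : K') (R : K →L[ℝ] K') (u : HT F (Fm κ K) j) :
    ctH κ K' F j h (fbH κ K K' F j R u) = ctH κ K F j (adjoint R h) u :=
  (cH_cH _ _ u).trans (congrArg (fun L => cH _ _ F j L u) (ContinuousLinearMap.ext (ct_fb' h R)))

theorem norm_fbH_le (R : K →L[ℝ] K') (u : HT F (Fm κ K) j) : ‖fbH κ K K' F j R u‖ ≤ ‖R‖ * ‖u‖ :=
  (norm_cH_le _ u).trans (mul_le_mul_of_nonneg_right
    (ContinuousLinearMap.opNorm_le_bound _ (norm_nonneg _) (norm_fb_le R)) (norm_nonneg _))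

theorem fbH_fbH (S : K' →L[ℝ] K'') (R : K →L[ℝ] K') (u : HT F (Fm κ K) j) :
    fbH κ K' K'' F j S (fbH κ K K' F j R u) = fbH κ K K'' F j (S ∘L R) u := cH_cH _ _ u

theorem fbH_id (u : HT F (Fm κ K) j) : fbH κ K K F j (ContinuousLinearMap.id ℝ K) u = u :=
  mulH_id (fun _ _ _ => rfl) u

theorem inner_fbH (R : K →L[ℝ] K') (u : HT F (Fm κ K) j) (v : HT F (Fm κ K') j) :
    ⟪fbH κ K K' F j R u, v⟫_ℝ = ⟪u, fbH κ K' K F j (adjoint R) v⟫_ℝ := inner_cH (inner_fb R) u v

theorem val_ctH {S : ℝ} (hS : Sup F S) (hj : 4 ≤ j) (h : K) (u : HT F (Fm κ K) j) (z : M) :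
    F.val j _ (ctH κ K F j h u) z = ct h (F.val j _ u z) :=
  val_mulH hS hj (Cb_const _) (Maps.triv _) u z

theorem val_fbH {S : ℝ} (hS : Sup F S) (hj : 4 ≤ j) (R : K →L[ℝ] K') (u : HT F (Fm κ K) j) (z : M) :
    F.val j _ (fbH κ K K' F j R u) z = fb R (F.val j _ u z) :=
  val_mulH hS hj (Cb_const _) (Maps.triv _) u z

end ten

end Crest.Agent.X212.Ten12
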