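import Mathlib

/-!
# Row 212, CYC-TEN (helper12): Hilbert tensor products, abstractly

`Ten K X Y` : `Y` is the Hilbert tensor product of `X` and `K`, given by contractions `c h` and
their adjoints `e h`.
-/

set_option autoImplicit false
noncomputable section
open scoped Topology InnerProductSpace
open Set Function Filter ContinuousLinearMap

namespace Crest.Agent.X212.Ten12

variable (K X Y : Type*) [NormedAddCommGroup K] [InnerProductSpace ℝ K]
  [NormedAddCommGroup X] [InnerProductSpace ℝ X] [NormedAddCommGroup Y] [InnerProductSpace ℝ Y] in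
/-- `Y = X ⊗ K` -/
structure Ten where
  c : K →L[ℝ] Y →L[ℝ] X
  e : K →L[ℝ] X →L[ℝ] Y
  adj : ∀ h u x, ⟪c h u, x⟫_ℝ = ⟪u, e h x⟫_ℝ
  ce : ∀ h h' x, c h (e h' x) = ⟪h, h'⟫_ℝ • x
  sep : ∀ u, (∀ h, c h u = 0) → u = 0

namespace Ten

variable {K K' X X' X'' Y Y' Y'' : Type*} [NormedAddCommGroup K] [InnerProductSpace ℝ K]
  [NormedAddCommGroup K'] [InnerProductSpace ℝ K']
  [NormedAddCommGroup X] [InnerProductSpace ℝ X] [NormedAddCommGroup Y] [InnerProductSpace ℝ Y]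
  [NormedAddCommGroup X'] [InnerProductSpace ℝ X'] [NormedAddCommGroup Y'] [InnerProductSpace ℝ Y']
  [NormedAddCommGroup X''] [InnerProductSpace ℝ X''] [NormedAddCommGroup Y'']
  [InnerProductSpace ℝ Y''] (T : Ten K X Y)

theorem ext' {u v : Y} (h : ∀ k, T.c k u = T.c k v) : u = v :=
  sub_eq_zero.1 (T.sep _ fun k => by rw [map_sub, h, sub_self])

theorem inner_e (h h' : K) (x x' : X) : ⟪T.e h x, T.e h' x'⟫_ℝ = ⟪h, h'⟫_ℝ * ⟪x, x'⟫_ℝ := by
  rw [← T.adj, T.ce, real_inner_smul_left, real_inner_comm h]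

theorem norm_e (h : K) (x : X) : ‖T.e h x‖ = ‖h‖ * ‖x‖ := by
  rw [← sq_eq_sq₀ (norm_nonneg _) (by positivity), ← real_inner_self_eq_norm_sq, T.inner_e,
    real_inner_self_eq_norm_sq, real_inner_self_eq_norm_sq, mul_pow]

theorem norm_c_le (h : K) (u : Y) : ‖T.c h u‖ ≤ ‖h‖ * ‖u‖ := by
  have h1 : ‖T.c h u‖ * ‖T.c h u‖ ≤ ‖h‖ * ‖u‖ * ‖T.c h u‖ := by
    rw [← real_inner_self_eq_norm_mul_norm, T.adj]
    refine (real_inner_le_norm _ _).trans_eq ?_
    rw [T.norm_e]; ring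
  rcases (norm_nonneg (T.c h u)).eq_or_lt with a | a
  · rw [← a]; positivity
  · exact le_of_mul_le_mul_right h1 a

/-- the embedding along a unit vector -/
def iso {h : K} (hh : ‖h‖ = 1) : X →ₗᵢ[ℝ] Y :=
  ⟨(T.e h).toLinearMap, fun x => (T.norm_e h x).trans (by rw [hh, one_mul])⟩

theorem orth {s : Type*} {b : s → K} (hb : Orthonormal ℝ b) :
    OrthogonalFamily ℝ (fun _ : s => X) fun n => T.iso (hb.1 n) := fun _ _ hne x y =>
  (T.inner_e _ _ x y).trans (by rw [hb.2 hne, zero_mul])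

theorem norm_sum_e {s : Type*} {b : s → K} (hb : Orthonormal ℝ b) (x : s → X) (t : Finset s) :
    ‖∑ n ∈ t, T.e (b n) (x n)‖ ^ 2 = ∑ n ∈ t, ‖x n‖ ^ 2 := (T.orth hb).norm_sum x t

/-- Bessel's inequality -/
theorem bessel {s : Type*} {b : s → K} (hb : Orthonormal ℝ b) (u : Y) (t : Finset s) :
    ∑ n ∈ t, ‖T.c (b n) u‖ ^ 2 ≤ ‖u‖ ^ 2 := by
  have h1 := T.norm_sum_e hb (fun n => T.c (b n) u) t
  have h2 : ⟪u, ∑ n ∈ t, T.e (b n) (T.c (b n) u)⟫_ℝ = ∑ n ∈ t, ‖T.c (b n) u‖ ^ 2 := by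
    simp only [inner_sum, ← T.adj, real_inner_self_eq_norm_sq]
  have h3 := norm_sub_sq_real u (∑ n ∈ t, T.e (b n) (T.c (b n) u))
  rw [h1, h2] at h3
  nlinarith [sq_nonneg ‖u - ∑ n ∈ t, T.e (b n) (T.c (b n) u)‖]

variable [CompleteSpace Y]

/-- **Hilbert-Schmidt operators are tensors** -/
theorem exists_hs {s : Type*} (b : HilbertBasis s ℝ K) (φ : K →L[ℝ] X) {C : ℝ}
    (hC : ∀ t : Finset s, ∑ n ∈ t, ‖φ (b n)‖ ^ 2 ≤ C) : ∃ u, (∀ h, T.c h u = φ h) ∧
      HasSum (fun n => T.e (b n) (φ (b n))) u ∧ HasSum (fun n => ‖φ (b n)‖ ^ 2) (‖u‖ ^ 2) := by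
  have h1 : Summable fun n => ‖φ (b n)‖ ^ 2 := summable_of_sum_le (fun _ => by positivity) hC
  obtain ⟨u, hu⟩ := ((T.orth b.orthonormal).summable_iff_norm_sq_summable fun n => φ (b n)).2 h1
  have hu' : HasSum (fun n => T.e (b n) (φ (b n))) u := hu
  refine ⟨u, fun h => (hu'.mapL (T.c h)).unique ?_, hu', ?_⟩
  · simpa only [T.ce, map_smul, b.repr_apply_apply, real_inner_comm h] using
      (b.hasSum_repr h).mapL φ
  · have := (Tendsto.norm hu').pow 2
    simp only [T.norm_sum_e b.orthonormal] at this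
    exact this

theorem hasSum_e {s : Type*} (b : HilbertBasis s ℝ K) (u : Y) :
    HasSum (fun n => T.e (b n) (T.c (b n) u)) u := by
  obtain ⟨v, h1, h2, -⟩ := T.exists_hs b (T.c.flip u) (T.bessel b.orthonormal u)
  rwa [T.ext' (u := v) (v := u) h1] at h2

/-- **Parseval** -/
theorem parseval {s : Type*} (b : HilbertBasis s ℝ K) (u : Y) :
    HasSum (fun n => ‖T.c (b n) u‖ ^ 2) (‖u‖ ^ 2) := by
  obtain ⟨v, h1, -, h2⟩ := T.exists_hs b (T.c.flip u) (T.bessel b.orthonormal u)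
  rwa [T.ext' (u := v) (v := u) h1] at h2

theorem parseval_inner {s : Type*} (b : HilbertBasis s ℝ K) (u v : Y) :
    HasSum (fun n => ⟪T.c (b n) u, T.c (b n) v⟫_ℝ) ⟪u, v⟫_ℝ := by
  simpa only [innerSL_apply_apply, ← T.adj] using (T.hasSum_e b v).mapL (innerSL ℝ u)

variable [CompleteSpace K]

/-- the usual form: a bound for all finite orthonormal families -/
theorem exists_of_bd (φ : K →L[ℝ] X) {C : ℝ} (h0 : 0 ≤ C)
    (hC : ∀ (s : Set K) (_ : Orthonormal ℝ ((↑) : s → K)) (t : Finset s),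
      ∑ n ∈ t, ‖φ n‖ ^ 2 ≤ C ^ 2) : ∃ u, (∀ h, T.c h u = φ h) ∧ ‖u‖ ≤ C := by
  obtain ⟨s, b, hb⟩ := exists_hilbertBasis ℝ K
  have h1 : ∀ t : Finset s, ∑ n ∈ t, ‖φ (b n)‖ ^ 2 ≤ C ^ 2 := fun t => by
    simpa only [hb] using hC s (hb ▸ b.orthonormal) t
  obtain ⟨u, h2, -, h3⟩ := T.exists_hs b φ h1
  exact ⟨u, h2, (pow_le_pow_iff_left₀ (norm_nonneg _) h0 two_ne_zero).1 (hasSum_le_of_sum_le h3 h1)⟩

theorem norm_le_of {u : Y} {C : ℝ} (h0 : 0 ≤ C)
    (hC : ∀ (s : Set K) (_ : Orthonormal ℝ ((↑) : s → K)) (t : Finset s),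
      ∑ n ∈ t, ‖T.c n u‖ ^ 2 ≤ C ^ 2) : ‖u‖ ≤ C := by
  obtain ⟨v, h1, h2⟩ := T.exists_of_bd (T.c.flip u) h0 hC
  rwa [T.ext' (u := v) (v := u) h1] at h2

omit [CompleteSpace Y] in
/-- finite sums of pure tensors are dense -/
theorem dense_e [CompleteSpace Y] {P : Y → Prop} (hP : IsClosed {u | P u}) (h0 : P 0)
    (ha : ∀ u v, P u → P v → P (u + v)) (he : ∀ h x, P (T.e h x)) (u : Y) : P u := by
  obtain ⟨s, b, -⟩ := exists_hilbertBasis ℝ K
  refine hP.mem_of_tendsto (T.hasSum_e b u) (Eventually.of_forall fun t => ?_)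
  exact Finset.sum_induction _ P ha h0 fun _ _ => he _ _

section lft
omit [CompleteSpace Y]
variable (T' : Ten K X' Y') [CompleteSpace Y']

theorem exists_lft (R : X →L[ℝ] X') (u : Y) :
    ∃ v, (∀ h, T'.c h v = R (T.c h u)) ∧ ‖v‖ ≤ ‖R‖ * ‖u‖ :=
  T'.exists_of_bd (R ∘L T.c.flip u) (by positivity) fun s hs t => by
    rw [mul_pow]
    refine le_trans (Finset.sum_le_sum fun n _ => ?_)
      ((Finset.mul_sum t _ _).ge.trans (mul_le_mul_of_nonneg_left (T.bessel hs u t) (sq_nonneg _)))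
    rw [← mul_pow]
    exact pow_le_pow_left₀ (norm_nonneg _) (R.le_opNorm _) 2

/-- `R ⊗ 1` as a function -/
def lft0 (R : X →L[ℝ] X') (u : Y) : Y' := (T.exists_lft T' R u).choose

theorem c_lft0 (R : X →L[ℝ] X') (u : Y) (h : K) : T'.c h (T.lft0 T' R u) = R (T.c h u) :=
  (T.exists_lft T' R u).choose_spec.1 h

/-- `R ⊗ 1` -/
def lft : (X →L[ℝ] X') →L[ℝ] Y →L[ℝ] Y' :=
  (LinearMap.mk₂ ℝ (T.lft0 T')
    (fun R S u => T'.ext' fun k => by simp only [map_add, c_lft0, add_apply])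
    (fun a R u => T'.ext' fun k => by simp only [map_smul, c_lft0, smul_apply])
    (fun R u v => T'.ext' fun k => by simp only [map_add, c_lft0])
    (fun a R u => T'.ext' fun k => by simp only [map_smul, c_lft0])).mkContinuous₂ 1
    fun R u => by
      rw [one_mul]
      exact (T.exists_lft T' R u).choose_spec.2

theorem c_lft (R : X →L[ℝ] X') (u : Y) (h : K) : T'.c h (T.lft T' R u) = R (T.c h u) :=
  T.c_lft0 T' R u h

theorem norm_lft_le (R : X →L[ℝ] X') (u : Y) : ‖T.lft T' R u‖ ≤ ‖R‖ * ‖u‖ :=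
  (T.exists_lft T' R u).choose_spec.2

theorem opNorm_lft_le (R : X →L[ℝ] X') : ‖T.lft T' R‖ ≤ ‖R‖ :=
  opNorm_le_bound _ (norm_nonneg _) (T.norm_lft_le T' R)

theorem norm_lft : ‖T.lft T'‖ ≤ 1 :=
  opNorm_le_bound _ zero_le_one fun R => by simpa only [one_mul] using T.opNorm_lft_le T' R

theorem lft_eq {R : X →L[ℝ] X'} {A : Y →L[ℝ] Y'} (h : ∀ k u, T'.c k (A u) = R (T.c k u)) :
    T.lft T' R = A := ContinuousLinearMap.ext fun u => T'.ext' fun k => by rw [c_lft, h]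

theorem lft_e (R : X →L[ℝ] X') (h : K) (x : X) : T.lft T' R (T.e h x) = T'.e h (R x) :=
  T'.ext' fun k => by rw [c_lft, T.ce, T'.ce, map_smul]

theorem lft_id : T'.lft T' (ContinuousLinearMap.id ℝ X') = ContinuousLinearMap.id ℝ Y' :=
  T'.lft_eq T' fun _ _ => rfl

theorem lft_lft (T'' : Ten K X'' Y'') [CompleteSpace Y''] (S : X' →L[ℝ] X'') (R : X →L[ℝ] X')
    (u : Y) : T'.lft T'' S (T.lft T' R u) = T.lft T'' (S ∘L R) u :=
  T''.ext' fun k => by simp only [c_lft]; rfl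

theorem lft_comp (T'' : Ten K X'' Y'') [CompleteSpace Y''] (S : X' →L[ℝ] X'') (R : X →L[ℝ] X') :
    T.lft T'' (S ∘L R) = T'.lft T'' S ∘L T.lft T' R :=
  ContinuousLinearMap.ext fun u => (T.lft_lft T' T'' S R u).symm

theorem inner_lft [CompleteSpace Y] {R : X →L[ℝ] X'} {S : X' →L[ℝ] X}
    (h : ∀ x y, ⟪R x, y⟫_ℝ = ⟪x, S y⟫_ℝ) (u : Y) (v : Y') :
    ⟪T.lft T' R u, v⟫_ℝ = ⟪u, T'.lft T S v⟫_ℝ := by
  obtain ⟨s, b, -⟩ := exists_hilbertBasis ℝ K
  refine (T'.parseval_inner b _ _).unique ?_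
  simpa only [c_lft, h] using T.parseval_inner b u (T'.lft T S v)

end lft

section flip
variable [CompleteSpace X] (T' : Ten X K Y') [CompleteSpace Y']

theorem exists_flip (u : Y) :
    ∃ v, (∀ x h, ⟪T'.c x v, h⟫_ℝ = ⟪T.c h u, x⟫_ℝ) ∧ ‖v‖ ≤ ‖u‖ := by
  obtain ⟨s, b, -⟩ := exists_hilbertBasis ℝ K
  have key : ∀ x h, ⟪adjoint (T.c.flip u) x, h⟫_ℝ = ⟪T.c h u, x⟫_ℝ := fun x h => by
    rw [adjoint_inner_left, real_inner_comm, flip_apply]
  obtain ⟨v, h1, h2⟩ := T'.exists_of_bd (adjoint (T.c.flip u)) (norm_nonneg u) fun a ha t => by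
    have h3 : ∀ x, HasSum (fun n => ‖⟪x, T.c (b n) u⟫_ℝ‖ ^ 2) (‖adjoint (T.c.flip u) x‖ ^ 2) :=
      fun x => by
        have := b.hasSum_inner_mul_inner (adjoint (T.c.flip u) x) (adjoint (T.c.flip u) x)
        rw [real_inner_self_eq_norm_sq] at this
        simp only [real_inner_comm (adjoint (T.c.flip u) x) (b _), key] at this
        simpa only [Real.norm_eq_abs, sq_abs, sq, abs_mul_abs_self, real_inner_comm x] using this
    exact hasSum_le (fun n => ha.sum_inner_products_le _) (hasSum_sum fun (x : a) (_ : x ∈ t) => h3 x)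
      (T.parseval b u)
  exact ⟨v, fun x h => by rw [h1, key], h2⟩

omit [CompleteSpace X] [CompleteSpace K] [CompleteSpace Y'] [CompleteSpace Y] in
theorem ext_inner {u v : Y} (h : ∀ k x, ⟪T.c k u, x⟫_ℝ = ⟪T.c k v, x⟫_ℝ) : u = v :=
  T.ext' fun k => ext_inner_right ℝ (h k)

/-- exchange of the two factors as a function -/
def flip0 (u : Y) : Y' := (T.exists_flip T' u).choose

theorem inner_flip0 (u : Y) (x : X) (h : K) :
    ⟪T'.c x (T.flip0 T' u), h⟫_ℝ = ⟪T.c h u, x⟫_ℝ := (T.exists_flip T' u).choose_spec.1 x h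

/-- exchange of the two factors -/
def flip : Y →ₗᵢ[ℝ] Y' where
  toFun := T.flip0 T'
  map_add' u v := T'.ext_inner fun x h => by simp only [map_add, inner_add_left, inner_flip0]
  map_smul' a u := T'.ext_inner fun x h => by
    simp only [map_smul, real_inner_smul_left, inner_flip0, RingHom.id_apply]
  norm_map' u := by
    refine (T.exists_flip T' u).choose_spec.2.antisymm ?_
    obtain ⟨w, h1, h2⟩ := T'.exists_flip T (T.flip0 T' u)
    rwa [T.ext_inner (u := w) (v := u) fun k x => by rw [h1, inner_flip0]] at h2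

theorem inner_flip (u : Y) (x : X) (h : K) : ⟪T'.c x (T.flip T' u), h⟫_ℝ = ⟪T.c h u, x⟫_ℝ :=
  T.inner_flip0 T' u x h

theorem c_flip (u : Y) (x : X) : T'.c x (T.flip T' u) = adjoint (T.c.flip u) x :=
  ext_inner_right ℝ fun h => by rw [inner_flip, adjoint_inner_left, real_inner_comm, flip_apply]

theorem flip_flip (u : Y) : T'.flip T (T.flip T' u) = u :=
  T.ext_inner fun k x => by rw [inner_flip, inner_flip]

theorem flip_e (h : K) (x : X) : T.flip T' (T.e h x) = T'.e x h :=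
  T'.ext_inner fun y k => by
    rw [inner_flip, T.ce, T'.ce, real_inner_smul_left, real_inner_smul_left, real_inner_comm h,
      real_inner_comm x, mul_comm]

end flip

end Ten

end Crest.Agent.X212.Ten12
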